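import Vale.Agent.P165.EX.Any.Frames
import Vale.Agent.P165.EX.Join.Alternatives

/-!
# Density gives transversality over every extension field

A polynomial over an extension that vanishes on the image vanishes, coordinate by coordinate, at
every rational point of a polynomially parametrised piece of the closure, so at all its points over
the extension. Products of transvections are such pieces of `SL(n)` and of the group of an
alternating form.
-/

namespace Vale.Agent.P165.EX.Any

open Matrix Finset
open scoped MatrixGroups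

/-- A product of allowed transvections has determinant one. -/
theorem prodT_det {F : Type} [Field F] {n : ℕ} (P : Moves F n)
    {L : List ((Fin n → F) × (Fin n → F))} (h : P.Valid L) : (prodT L).det = 1 := by
  induction L with
  | nil => simp [prodT]
  | cons e L ih =>
    rw [show prodT (e :: L) = (1 + vecMulVec e.1 e.2) * prodT L by simp [prodT], det_mul,
      ih fun x hx => h x (List.mem_cons_of_mem _ hx), mul_one, vecMulVec_eq Unit,
      det_one_add_replicateCol_mul_replicateRow, P.orth _ _ (h e List.mem_cons_self), add_zero]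

variable {k : Type} [NontriviallyNormedField k] {n : ℕ} {Γ : Type} [Group Γ] (ρ : Γ →* SL(n, k))

/-- Transport of vanishing along a parametrisation over the ground field. -/
theorem vanish_transfer {σ L : Type} [Field L] [Algebra k L]
    (Gp : Matrix (Fin n) (Fin n) (MvPolynomial σ k))
    (hd : ∀ f : MvPolynomial (Fin n × Fin n) k,
      (∀ g, MvPolynomial.eval (fun e => (ρ g : Matrix (Fin n) (Fin n) k) e.1 e.2) f = 0) →
        ∀ x, MvPolynomial.eval (fun e => MvPolynomial.eval x (Gp e.1 e.2)) f = 0)
    (f : MvPolynomial (Fin n × Fin n) L)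
    (hf : ∀ g, MvPolynomial.eval
      (fun e => algebraMap k L ((ρ g : Matrix (Fin n) (Fin n) k) e.1 e.2)) f = 0) (y : σ → L) :
    MvPolynomial.eval (fun e => MvPolynomial.aeval y (Gp e.1 e.2)) f = 0 := by
  classical
  set φ := algebraMap k L
  have hk : ∀ z : Fin n × Fin n → k, ∀ ℓ : L →ₗ[k] k,
      MvPolynomial.eval z (∑ d ∈ f.support, MvPolynomial.monomial d (ℓ (f.coeff d))) =
        ℓ (MvPolynomial.eval (fun e => φ (z e)) f) := fun z ℓ => by
    rw [map_sum, MvPolynomial.eval_eq, map_sum]
    refine sum_congr rfl fun d _ => ?_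
    rw [MvPolynomial.eval_monomial, Finsupp.prod]
    simp only [← map_pow, ← map_prod]
    rw [mul_comm (f.coeff d) (φ _), ← Algebra.smul_def, map_smul, smul_eq_mul, mul_comm]
  set G : MvPolynomial σ L :=
    MvPolynomial.bind₁ (fun e => MvPolynomial.map φ (Gp e.1 e.2)) f with hG
  have hGev : ∀ z : σ → L, MvPolynomial.eval z G =
      MvPolynomial.eval (fun e => MvPolynomial.eval₂ φ z (Gp e.1 e.2)) f := fun z => by
    rw [hG, MvPolynomial.eval, MvPolynomial.eval₂Hom_bind₁, ← MvPolynomial.eval]
    refine congrArg (fun w => MvPolynomial.eval w f) (funext fun e => ?_)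
    exact MvPolynomial.eval_map φ z _
  suffices h : G = 0 by
    have h2 := hGev y
    rw [h, map_zero] at h2
    exact h2.symm
  refine MvPolynomial.funext_set (fun _ => Set.range φ)
    (fun _ => Set.infinite_range_of_injective φ.injective) fun z hz => ?_
  rw [map_zero, hGev]
  choose x hx using fun q => hz q (Set.mem_univ q)
  obtain rfl : φ ∘ x = z := funext hx
  rw [show (fun e : Fin n × Fin n => MvPolynomial.eval₂ φ (φ ∘ x) (Gp e.1 e.2)) =
      fun e => φ (MvPolynomial.eval x (Gp e.1 e.2)) from funext fun e =>
    (MvPolynomial.eval₂_comp φ x (Gp e.1 e.2)).symm]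
  refine (Module.forall_dual_apply_eq_zero_iff k _).1 fun ℓ => ?_
  rw [← hk]
  exact hd _ (fun g => by rw [hk, hf g, map_zero]) x

/-- A parametrised piece with a transversal point over every extension gives transversality. -/
theorem transExt_of_param
    (h : ∀ (L : Type) [Field L] [Algebra k L] (m : ℕ) (deg : Fin m → ℕ)
      (A : ∀ i, Matrix (Fin (deg i)) (Fin n) L) (B : ∀ i, Matrix (Fin n) (Fin (deg i)) L),
      (∀ i, FullRow (A i)) → (∀ i, FullRow (B i)ᵀ) →
      ∃ (σ : Type) (Gp : Matrix (Fin n) (Fin n) (MvPolynomial σ k)) (y : σ → L),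
        (∀ f : MvPolynomial (Fin n × Fin n) k,
          (∀ g, MvPolynomial.eval (fun e => (ρ g : Matrix (Fin n) (Fin n) k) e.1 e.2) f = 0) →
            ∀ x, MvPolynomial.eval (fun e => MvPolynomial.eval x (Gp e.1 e.2)) f = 0) ∧
        ∀ i, (A i * (Gp.map fun P => MvPolynomial.aeval y P) * B i).det ≠ 0) : TransExt ρ := by
  classical
  intro L _ _ m deg A B hA hB
  obtain ⟨σ, Gp, y, hd, hgood⟩ := h L m deg A B hA hB
  by_contra hno
  push Not at hno
  set X : Matrix (Fin n) (Fin n) (MvPolynomial (Fin n × Fin n) L) :=
    Matrix.of fun a b => MvPolynomial.X (a, b)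
  set f : Fin m → MvPolynomial (Fin n × Fin n) L := fun i =>
    ((A i).map (MvPolynomial.C : L →+* MvPolynomial (Fin n × Fin n) L) * X *
      (B i).map (MvPolynomial.C : L →+* MvPolynomial (Fin n × Fin n) L) :
        Matrix (Fin (deg i)) (Fin (deg i)) (MvPolynomial (Fin n × Fin n) L)).det with hf
  have hev : ∀ i (a : Matrix (Fin n) (Fin n) L),
      MvPolynomial.eval (fun e => a e.1 e.2) (f i) = (A i * a * B i).det := fun i a => by
    rw [hf, RingHom.map_det, RingHom.mapMatrix_apply, Matrix.map_mul, Matrix.map_mul]
    congr 3 <;> (ext u v; simp [X])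
  have hz := vanish_transfer ρ Gp hd (∏ i, f i) (fun g => by
    obtain ⟨i, hi⟩ := hno g
    rw [map_prod]
    exact prod_eq_zero (mem_univ i) (by
      rw [← hi, ← hev i ((ρ g : Matrix (Fin n) (Fin n) k).map (algebraMap k L))]; rfl)) y
  rw [map_prod] at hz
  obtain ⟨i, -, h0⟩ := prod_eq_zero_iff.1 hz
  refine hgood i ?_
  rw [← hev]
  exact h0

/-- Zariski density in `SL(n)` gives transversality over every extension. -/
theorem transExt_of_dense (hn : 2 ≤ n)
    (hd : ∀ f : MvPolynomial (Fin n × Fin n) k,
      (∀ g, MvPolynomial.eval (fun e => (ρ g : Matrix (Fin n) (Fin n) k) e.1 e.2) f = 0) →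
        ∀ a : Matrix (Fin n) (Fin n) k, a.det = 1 → MvPolynomial.eval (fun e => a e.1 e.2) f = 0) :
    TransExt ρ := by
  refine transExt_of_param ρ fun L _ _ m deg A B hA hB => ?_
  classical
  have : Infinite L := Infinite.of_injective _ (algebraMap k L).injective
  have : Nontrivial (Fin n) := Fin.nontrivial_iff_two_le.2 hn
  obtain ⟨l, hl, hgood⟩ := exists_pairs (slMoves (k := L) hn) deg A B hA hB univ
  obtain ⟨T, hT⟩ := SL.exists_list_transvec_prod (prodT_det (slMoves (k := L) hn) hl)
  set Gp : Matrix (Fin n) (Fin n) (MvPolynomial (Fin T.length) k) :=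
    (List.ofFn fun q : Fin T.length =>
      transvection (T.get q).i (T.get q).j (MvPolynomial.X q)).prod with hGp
  have hdet : Gp.det = 1 := by
    rw [hGp]
    refine (List.prod_induction (fun M : Matrix (Fin n) (Fin n) (MvPolynomial (Fin T.length) k) =>
      M.det = 1) (fun a b ha hb => by rw [det_mul, ha, hb, one_mul]) det_one fun M hM => ?_)
    obtain ⟨q, rfl⟩ := List.mem_ofFn.1 hM
    exact det_transvection_of_ne _ _ (T.get q).hij _
  refine ⟨_, Gp, fun q => (T.get q).c, fun f hf x => ?_, fun i => ?_⟩
  · refine hd f hf (Gp.map (MvPolynomial.eval x)) ?_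
    rw [← RingHom.mapMatrix_apply, ← RingHom.map_det, hdet, map_one]
  · have e : (Gp.map fun P => MvPolynomial.aeval (fun q => (T.get q).c) P) = prodT l := by
      rw [hT]
      conv_rhs => rw [← List.ofFn_get T, List.map_ofFn]
      rw [hGp]
      change (MvPolynomial.aeval fun q => (T.get q).c).toRingHom.mapMatrix _ = _
      rw [map_list_prod, List.map_ofFn]
      refine congrArg List.prod (congrArg List.ofFn (funext fun q => ?_))
      ext a b
      simp [TransvectionStruct.toMatrix, transvection, Matrix.one_apply, Matrix.single_apply]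
      split_ifs <;> simp
    rw [e]
    exact hgood i (mem_univ i)

/-- Density in the group of an alternating nonsingular form gives transversality over every
extension. -/
theorem transExt_of_form (J : Matrix (Fin n) (Fin n) k) (hJ : J.det ≠ 0)
    (halt : ∀ v, v ⬝ᵥ (J *ᵥ v) = 0)
    (hd : ∀ f : MvPolynomial (Fin n × Fin n) k,
      (∀ g, MvPolynomial.eval (fun e => (ρ g : Matrix (Fin n) (Fin n) k) e.1 e.2) f = 0) →
        ∀ a : Matrix (Fin n) (Fin n) k, aᵀ * J * a = J →
          MvPolynomial.eval (fun e => a e.1 e.2) f = 0) :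
    TransExt ρ := by
  refine transExt_of_param ρ fun L _ _ m deg A B hA hB => ?_
  classical
  have : Infinite L := Infinite.of_injective _ (algebraMap k L).injective
  set φ := algebraMap k L
  have hdiag : ∀ i, J i i = 0 := fun i => by simpa using halt (Pi.single i 1)
  have hsk := skew_of_alt halt
  have haltL : ∀ v, v ⬝ᵥ (J.map φ *ᵥ v) = 0 := fun v => by
    have hterm : ∀ a b, v a * ((J.map φ) a b * v b) + v b * ((J.map φ) b a * v a) = 0 := fun a b => by
      have hs : J b a = -J a b := congrFun (congrFun hsk a) b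
      rw [map_apply, map_apply, hs, map_neg]; ring
    simp only [dotProduct, mulVec, mul_sum]
    rw [← sum_product']
    refine sum_involution (fun e _ => (e.2, e.1)) (fun e _ => hterm e.1 e.2) (fun e _ hne heq => ?_)
      (fun e _ => mem_product.2 ⟨mem_univ _, mem_univ _⟩) fun e _ => rfl
    refine hne ?_
    have h2 : e.2 = e.1 := congrArg Prod.fst heq
    rw [h2, map_apply, hdiag, map_zero, zero_mul, mul_zero]
  have hJL : (J.map φ).det ≠ 0 := by
    rw [← RingHom.mapMatrix_apply, ← RingHom.map_det]
    exact fun h0 => hJ (φ.injective (h0.trans (map_zero φ).symm))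
  obtain ⟨l, hl, hgood⟩ := exists_pairs (formMoves (J.map φ) hJL haltL) deg A B hA hB univ
  choose c v hu hw using fun q : Fin l.length => hl _ (l.get_mem q)
  set Gp : Matrix (Fin n) (Fin n) (MvPolynomial (Fin l.length × Option (Fin n)) k) :=
    (List.ofFn fun q : Fin l.length => 1 + vecMulVec
      ((MvPolynomial.X (q, none) : MvPolynomial (Fin l.length × Option (Fin n)) k) •
        fun b => (MvPolynomial.X (q, some b) : MvPolynomial (Fin l.length × Option (Fin n)) k))
      ((fun b => (MvPolynomial.X (q, some b) : MvPolynomial (Fin l.length × Option (Fin n)) k)) ᵥ*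
        J.map (MvPolynomial.C : k →+* MvPolynomial (Fin l.length × Option (Fin n)) k))).prod
    with hGp
  refine ⟨_, Gp, fun q => q.2.elim (c q.1) (v q.1), fun f hf x => ?_, fun i => ?_⟩
  · set lst : List ((Fin n → k) × (Fin n → k)) := List.ofFn fun q : Fin l.length =>
      (x (q, none) • (fun b => x (q, some b)), (fun b => x (q, some b)) ᵥ* J) with hlst
    have e : Gp.map (MvPolynomial.eval x) = prodT lst := by
      rw [hGp, ← RingHom.mapMatrix_apply, map_list_prod, List.map_ofFn, prodT, hlst, List.map_ofFn]
      refine congrArg List.prod (congrArg List.ofFn (funext fun q => ?_))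
      ext a b
      simp [vecMulVec_apply, Matrix.one_apply, apply_ite (MvPolynomial.eval x), vecMul, dotProduct,
        map_sum]
    have hval : (formMoves J hJ halt).Valid lst := fun e he => by
      obtain ⟨q, rfl⟩ := List.mem_ofFn.1 he
      exact ⟨_, _, rfl, rfl⟩
    have h := hd f hf _ (formMoves_preserves J hJ halt hsk hval)
    rw [← e] at h
    exact h
  · have e : (Gp.map fun P => MvPolynomial.aeval (fun q => q.2.elim (c q.1) (v q.1)) P) =
        prodT l := by
      rw [hGp, prodT]
      conv_rhs => rw [← List.ofFn_get l, List.map_ofFn]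
      change (MvPolynomial.aeval fun q : Fin l.length × Option (Fin n) =>
        q.2.elim (c q.1) (v q.1)).toRingHom.mapMatrix _ = _
      rw [map_list_prod, List.map_ofFn]
      refine congrArg List.prod (congrArg List.ofFn (funext fun q => ?_))
      ext a b
      simp only [Function.comp_apply, hu q, hw q]
      simp [vecMulVec_apply, Matrix.one_apply,
        apply_ite (MvPolynomial.aeval fun q : Fin l.length × Option (Fin n) =>
          q.2.elim (c q.1) (v q.1)), vecMul, dotProduct, map_sum, φ]
    rw [e]
    exact hgood i (mem_univ i)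

/-- The alternatives at one place give transversality over every extension. -/
theorem transExt_of_alternatives (hn : 2 ≤ n)
    (h : ∃ S : Set (Matrix (Fin n) (Fin n) k),
      ((S = {a | a.det = 1}) ∨ ∃ J : Matrix (Fin n) (Fin n) k,
          J.det ≠ 0 ∧ (∀ v, v ⬝ᵥ (J *ᵥ v) = 0) ∧ S = {a | aᵀ * J * a = J}) ∧
        ∀ f : MvPolynomial (Fin n × Fin n) k,
          (∀ g, MvPolynomial.eval (fun e => (ρ g : Matrix (Fin n) (Fin n) k) e.1 e.2) f = 0) →
          ∀ a ∈ S, MvPolynomial.eval (fun e => a e.1 e.2) f = 0) : TransExt ρ := by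
  obtain ⟨S, hS, hd⟩ := h
  rcases hS with rfl | ⟨J, hJ, halt, rfl⟩
  · exact transExt_of_dense ρ hn hd
  · exact transExt_of_form ρ J hJ halt hd

end Vale.Agent.P165.EX.Any
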