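import Vale.Agent.P165.EX.Trans.Main

/-!
# Uniform frames over any normed field

If over every extension field finitely many pairs of subspaces can be made transversal by the group,
the products of the pairing determinants generate the unit ideal on every chart of normalised
matrices, so finitely many elements pair all of them with a uniform constant in any norm. Frames of
several places combine by multiplying two finite sets.
-/

namespace Vale.Agent.P165.EX.Any

open Matrix Finset
open scoped Matrix.Norms.Elementwise MatrixGroups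

variable {k : Type} [NontriviallyNormedField k] {n : ℕ} {Γ : Type} [Group Γ] (ρ : Γ →* SL(n, k))

/-- Over every extension field, finitely many pairs of full rank matrices are paired nonsingularly
by one element of the group. -/
def TransExt : Prop :=
  ∀ (L : Type) [Field L] [Algebra k L] (m : ℕ) (deg : Fin m → ℕ)
    (A : ∀ i, Matrix (Fin (deg i)) (Fin n) L) (B : ∀ i, Matrix (Fin n) (Fin (deg i)) L),
    (∀ i, FullRow (A i)) → (∀ i, FullRow (B i)ᵀ) → ∃ g : Γ, ∀ i,
      (A i * (ρ g : Matrix (Fin n) (Fin n) k).map (algebraMap k L) * B i).det ≠ 0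

/-- Frames: finitely many elements pair the largest minors of any data of the given orders with a
uniform constant. -/
def Frames : Prop :=
  ∀ (κ : Type) [Fintype κ] (deg : κ → ℕ), ∃ (F : Finset Γ) (c : ℝ), 0 < c ∧
    ∀ Z H : κ → Matrix (Fin n) (Fin n) k,
      (∀ i, cmp (deg i) (Z i) ≠ 0) → (∀ i, cmp (deg i) (H i) ≠ 0) → ∃ σ ∈ F, ∀ i,
        c * (‖cmp (deg i) (Z i)‖ * ‖cmp (deg i) (H i)‖) ≤
          ‖cmp (deg i) (Z i * (ρ σ : Matrix (Fin n) (Fin n) k) * H i)‖

/-- A matrix of indeterminates with the identity on the columns of `s`. -/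
noncomputable def chart {σ : Type} {j : ℕ} (s : Sub n j) (v : Fin j → Fin n → σ) :
    Matrix (Fin j) (Fin n) (MvPolynomial σ k) :=
  Matrix.of fun a l =>
    if ∃ c, emb s c = l then (if emb s a = l then 1 else 0) else MvPolynomial.X (v a l)

theorem map_chart {σ : Type} {j : ℕ} (s : Sub n j) (v : Fin j → Fin n → σ) (x : σ → k)
    {A : Matrix (Fin j) (Fin n) k} (hA : A.submatrix id (emb s) = 1)
    (hx : ∀ a l, x (v a l) = A a l) : (chart s v).map (MvPolynomial.eval x) = A := by
  ext a l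
  rw [map_apply, chart, of_apply]
  split_ifs with h1 h2
  · subst h2
    have := congrFun (congrFun hA a) a
    simp only [submatrix_apply, id, one_apply_eq] at this
    rw [map_one, this]
  · obtain ⟨c, rfl⟩ := h1
    have hac : a ≠ c := fun e => h2 (congrArg (emb s) e)
    have := congrFun (congrFun hA a) c
    simp only [submatrix_apply, id, one_apply_ne hac] at this
    rw [map_zero, this]
  · rw [MvPolynomial.eval_X, hx]

theorem fullRow_chart {σ L : Type} [Field L] {j : ℕ} (s : Sub n j) (v : Fin j → Fin n → σ)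
    (χ : MvPolynomial σ k →+* L) : FullRow ((chart s v).map χ) := by
  refine ⟨s, ?_⟩
  have : ((chart s v).map χ).submatrix id (emb s) = 1 := by
    ext a c
    rw [submatrix_apply, map_apply, chart, of_apply, if_pos ⟨c, rfl⟩, id, one_apply]
    simp [(emb s).injective.eq_iff, apply_ite χ]
  rw [this, det_one]
  exact one_ne_zero

/-- Finitely many elements are uniformly transversal on one chart. -/
theorem exists_chart_bound (htr : TransExt ρ) {κ : Type} [Fintype κ] (deg : κ → ℕ)
    (s t : ∀ i, Sub n (deg i)) :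
    ∃ (F : Finset Γ) (c : ℝ), 0 < c ∧ ∀ A B : ∀ i, Matrix (Fin (deg i)) (Fin n) k,
      (∀ i, Normal (s i) (A i)) → (∀ i, Normal (t i) (B i)) → ∃ σ ∈ F, ∀ i,
        c ≤ ‖(A i * (ρ σ : Matrix (Fin n) (Fin n) k) * (B i)ᵀ).det‖ := by
  classical
  let V := Σ i : κ, (Fin (deg i) × Fin n) ⊕ (Fin (deg i) × Fin n)
  let AA : ∀ i, Matrix (Fin (deg i)) (Fin n) (MvPolynomial V k) := fun i =>
    chart (s i) fun a l => ⟨i, Sum.inl (a, l)⟩
  let BB : ∀ i, Matrix (Fin (deg i)) (Fin n) (MvPolynomial V k) := fun i =>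
    chart (t i) fun a l => ⟨i, Sum.inr (a, l)⟩
  let Φ : Γ → MvPolynomial V k := fun g => ∏ i,
    (AA i * (ρ g : Matrix (Fin n) (Fin n) k).map (MvPolynomial.C : k →+* MvPolynomial V k) *
      (BB i)ᵀ).det
  have htop : Ideal.span (Set.range Φ) = ⊤ := by
    by_contra hne
    obtain ⟨M, hM, hle⟩ := Ideal.exists_le_maximal _ hne
    let : Field (MvPolynomial V k ⧸ M) := Ideal.Quotient.field M
    set χ : MvPolynomial V k →+* MvPolynomial V k ⧸ M := Ideal.Quotient.mk M with hχ
    set e := Fintype.equivFin κ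
    obtain ⟨g, hg⟩ := htr (MvPolynomial V k ⧸ M) _ (fun l => deg (e.symm l))
      (fun l => (AA (e.symm l)).map χ) (fun l => ((BB (e.symm l)).map χ)ᵀ)
      (fun l => fullRow_chart _ _ χ)
      (fun l => by rw [transpose_transpose]; exact fullRow_chart _ _ χ)
    have h0 : χ (Φ g) = 0 := Ideal.Quotient.eq_zero_iff_mem.2 (hle (Ideal.subset_span ⟨g, rfl⟩))
    rw [map_prod] at h0
    obtain ⟨i, -, hi⟩ := prod_eq_zero_iff.1 h0
    obtain ⟨l, rfl⟩ := e.symm.surjective i
    refine hg l ?_
    rw [RingHom.map_det, RingHom.mapMatrix_apply, Matrix.map_mul, Matrix.map_mul, transpose_map,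
      Matrix.map_map] at hi
    exact hi
  have h1 : (1 : MvPolynomial V k) ∈ Submodule.span (MvPolynomial V k) (Set.range Φ) := by
    change (1 : MvPolynomial V k) ∈ Ideal.span (Set.range Φ)
    rw [htop]; trivial
  obtain ⟨co, hco⟩ := Finsupp.mem_span_range_iff_exists_finsupp.1 h1
  set H : Γ → ℝ := fun g => ∑ d ∈ (co g).support, ‖MvPolynomial.coeff d (co g)‖ with hH
  have hH0 : ∀ g, 0 ≤ H g := fun g => sum_nonneg fun _ _ => norm_nonneg _
  set D : κ → ℝ := fun i => ∑ g ∈ co.support,
    ((deg i).factorial : ℝ) * ((n : ℝ) * ((n : ℝ) * ‖(ρ g : Matrix (Fin n) (Fin n) k)‖)) ^ deg i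
    with hD
  have hD0 : ∀ i, 0 ≤ D i := fun i => sum_nonneg fun _ _ => by positivity
  set M : ℝ := 1 + ∑ i, D i with hMd
  have hM1 : 1 ≤ M := le_add_of_nonneg_right (sum_nonneg fun i _ => hD0 i)
  set T : ℝ := 1 + ∑ g ∈ co.support, H g with hT
  have hT0 : 0 < T := lt_of_lt_of_le one_pos (le_add_of_nonneg_right (sum_nonneg fun g _ => hH0 g))
  refine ⟨co.support, 1 / (T * M ^ Fintype.card κ), by positivity, fun A B hA hB => ?_⟩
  let x : V → k := fun v => Sum.elim (fun p => A v.1 p.1 p.2) (fun p => B v.1 p.1 p.2) v.2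
  have hx : ∀ v, ‖x v‖ ≤ 1 := by
    rintro ⟨i, p | p⟩
    · exact (hA i).2 _ _
    · exact (hB i).2 _ _
  set P : Γ → κ → ℝ := fun g i => ‖(A i * (ρ g : Matrix (Fin n) (Fin n) k) * (B i)ᵀ).det‖ with hP
  have hev : ∀ g, ‖MvPolynomial.eval x (Φ g)‖ = ∏ i, P g i := fun g => by
    rw [map_prod, norm_prod]
    refine prod_congr rfl fun i _ => congrArg norm ?_
    rw [RingHom.map_det, RingHom.mapMatrix_apply, Matrix.map_mul, Matrix.map_mul, transpose_map,
      map_chart (s i) _ x (hA i).1 fun a l => rfl, map_chart (t i) _ x (hB i).1 fun a l => rfl,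
      Matrix.map_map]
    congr 3
    ext a b
    simp
  have hcoef : ∀ g, ‖MvPolynomial.eval x (co g)‖ ≤ H g := fun g => by
    rw [MvPolynomial.eval_eq]
    refine (norm_sum_le _ _).trans (sum_le_sum fun d _ => ?_)
    rw [norm_mul, norm_prod]
    refine mul_le_of_le_one_right (norm_nonneg _) (prod_le_one (fun v _ => norm_nonneg _)
      fun v _ => ?_)
    rw [norm_pow]
    exact pow_le_one₀ (norm_nonneg _) (hx v)
  have hsum : (1 : ℝ) ≤ ∑ g ∈ co.support, H g * ∏ i, P g i := by
    have e := congrArg (MvPolynomial.eval x) hco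
    rw [map_one, Finsupp.sum, map_sum] at e
    calc (1 : ℝ) = ‖(1 : k)‖ := norm_one.symm
      _ ≤ _ := by
          rw [← e]
          refine (norm_sum_le _ _).trans (sum_le_sum fun g _ => ?_)
          rw [smul_eq_mul, map_mul, norm_mul, hev]
          exact mul_le_mul_of_nonneg_right (hcoef g) (prod_nonneg fun i _ => norm_nonneg _)
  obtain ⟨g, hg, hbig⟩ : ∃ g ∈ co.support, 1 / T ≤ ∏ i, P g i := by
    by_contra! hno
    have : ∑ g ∈ co.support, H g * ∏ i, P g i ≤ ∑ g ∈ co.support, H g * (1 / T) :=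
      sum_le_sum fun g hg => mul_le_mul_of_nonneg_left (hno g hg).le (hH0 g)
    rw [← sum_mul, mul_one_div] at this
    have hlt : (∑ g ∈ co.support, H g) / T < 1 := by
      rw [div_lt_one hT0, hT]; linarith
    linarith
  have hPM : ∀ i, P g i ≤ M := fun i => by
    refine le_trans ?_ ((single_le_sum (fun i _ => hD0 i) (mem_univ i)).trans
      (le_add_of_nonneg_left zero_le_one))
    refine le_trans ?_ (single_le_sum (fun g _ => by positivity) hg)
    refine norm_det_le _ fun a b => ?_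
    rw [Matrix.mul_apply]
    refine (norm_sum_le _ _).trans ((sum_le_card_nsmul _ _
      ((n : ℝ) * ‖(ρ g : Matrix (Fin n) (Fin n) k)‖) fun l _ => ?_).trans_eq ?_)
    · rw [norm_mul, transpose_apply]
      refine le_trans (mul_le_of_le_one_right (norm_nonneg _) ((hB i).2 b l)) ?_
      rw [Matrix.mul_apply]
      refine (norm_sum_le _ _).trans ((sum_le_card_nsmul _ _
        ‖(ρ g : Matrix (Fin n) (Fin n) k)‖ fun u _ => ?_).trans_eq ?_)
      · rw [norm_mul]
        exact (mul_le_of_le_one_left (norm_nonneg _) ((hA i).2 a u)).trans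
          (norm_entry_le_entrywise_sup_norm _)
      · rw [nsmul_eq_mul, card_univ, Fintype.card_fin]
    · rw [nsmul_eq_mul, card_univ, Fintype.card_fin]
  refine ⟨g, hg, fun i => ?_⟩
  have hrest : ∏ l ∈ univ.erase i, P g l ≤ M ^ Fintype.card κ :=
    ((prod_le_prod (fun l _ => norm_nonneg _) fun l _ => hPM l).trans_eq (by rw [prod_const])).trans
      (pow_le_pow_right₀ hM1 (card_le_univ _))
  rw [← mul_prod_erase univ (P g) (mem_univ i)] at hbig
  rw [div_le_iff₀ (by positivity)]
  rw [div_le_iff₀ hT0] at hbig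
  have := mul_le_mul_of_nonneg_left hrest (norm_nonneg
    (A i * (ρ g : Matrix (Fin n) (Fin n) k) * (B i)ᵀ).det)
  have := mul_le_mul_of_nonneg_right this hT0.le
  simp only [hP] at hbig ⊢
  linarith

/-- Transversality over every extension gives frames. -/
theorem frames_of_transExt (htr : TransExt ρ) : Frames ρ := by
  classical
  intro κ _ deg
  choose Fs cs hcs hFs using fun e : (∀ i, Sub n (deg i)) × (∀ i, Sub n (deg i)) =>
    exists_chart_bound ρ htr deg e.1 e.2
  obtain ⟨c, hc, hle⟩ : ∃ c : ℝ, 0 < c ∧ ∀ e, c ≤ cs e := by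
    have hsum : 0 < 1 + ∑ e, 1 / cs e := add_pos_of_pos_of_nonneg one_pos
      (sum_nonneg fun e _ => (one_div_pos.2 (hcs e)).le)
    refine ⟨1 / (1 + ∑ e, 1 / cs e), one_div_pos.2 hsum, fun e => ?_⟩
    rw [div_le_iff₀ hsum]
    have h := single_le_sum (f := fun e => 1 / cs e)
      (fun e _ => (one_div_pos.2 (hcs e)).le) (mem_univ e)
    have h2 := mul_le_mul_of_nonneg_left
      (h.trans (le_add_of_nonneg_left (zero_le_one (α := ℝ)))) (hcs e).le
    rwa [mul_one_div, div_self (hcs e).ne'] at h2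
  refine ⟨univ.biUnion Fs, c, hc, fun Z H hZ hH => ?_⟩
  choose s t A hA hTd hTn hTA using fun i => exists_normal_rows (Z i) (hZ i)
  choose s' t' B hB hT'd hT'n hT'B using fun i => exists_normal_rows (H i)ᵀ (j := deg i) (by
    intro h0
    refine hH i (Matrix.ext fun a b => ?_)
    have := congrFun (congrFun h0 b) a
    simp only [cmp, Matrix.of_apply, Matrix.zero_apply] at this ⊢
    rwa [← det_transpose, transpose_submatrix])
  have hnH : ∀ i, ‖cmp (deg i) (H i)ᵀ‖ = ‖cmp (deg i) (H i)‖ := fun i => by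
    rw [← norm_transpose]
    refine congrArg norm ?_
    ext a b
    simp only [cmp, transpose_apply, Matrix.of_apply]
    rw [← det_transpose, transpose_submatrix, transpose_transpose]
  obtain ⟨σ, hσ, hb⟩ := hFs (t, t') A B hA hB
  refine ⟨σ, mem_biUnion.2 ⟨_, mem_univ _, hσ⟩, fun i => ?_⟩
  refine (mul_le_mul_of_nonneg_right ((hle _).trans (hb i)) (by positivity)).trans ?_
  set g := (ρ σ : Matrix (Fin n) (Fin n) k)
  set Tz := (Z i).submatrix (emb (s i)) (emb (t i))
  set Th := (H i)ᵀ.submatrix (emb (s' i)) (emb (t' i))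
  have h1 : (Z i * g * H i).submatrix (emb (s i)) (emb (s' i)) = Tz * (A i * g * (B i)ᵀ) * Thᵀ := by
    have hb : (H i).submatrix id (emb (s' i)) = (B i)ᵀ * Thᵀ := by
      rw [← transpose_mul, ← hT'B i]; rfl
    calc (Z i * g * H i).submatrix (emb (s i)) (emb (s' i))
        = (Z i).submatrix (emb (s i)) id * g * (H i).submatrix id (emb (s' i)) := rfl
      _ = _ := by rw [hTA i, hb]; simp only [Matrix.mul_assoc]; rfl
  have h2 : ‖((Z i * g * H i).submatrix (emb (s i)) (emb (s' i))).det‖ ≤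
      ‖cmp (deg i) (Z i * g * H i)‖ :=
    minor_le _ _ _ (emb (s i)).injective (emb (s' i)).injective
  rw [h1, det_mul, det_mul, det_transpose, norm_mul, norm_mul, ← hTn i, ← hT'n i, hnH i] at h2
  exact (le_of_eq (by ring)).trans h2

section several

variable {P : Type} {K : P → Type} [∀ p, NontriviallyNormedField (K p)] {d : P → ℕ}
  (ρs : ∀ p, Γ →* SL(d p, K p))

omit [Group Γ] in
theorem cmp_norm_le_mul {m j : ℕ} (Z X Y : Matrix (Fin m) (Fin m) k) (h : X * Y = 1) :
    ‖cmp j Z‖ ≤ (Fintype.card (Sub m j) : ℝ) * (‖cmp j (Z * X)‖ * ‖cmp j Y‖) := by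
  have e : cmp j Z = cmp j (Z * X) * cmp j Y := by
    rw [← cmp_mul, Matrix.mul_assoc, h, Matrix.mul_one]
  rw [e]
  exact norm_mul_le_card _ _

/-- Frames of each place give joint frames: first an element good at the other places after any of
the frames of one place, then a frame of that place. -/
theorem exists_joint_frames (hfr : ∀ p, Frames (ρs p)) (T : Finset P) :
    ∀ (κ : P → Type) [∀ p, Fintype (κ p)] (deg : ∀ p, κ p → ℕ), ∃ (F : Finset Γ) (c : ℝ), 0 < c ∧
      ∀ Z H : ∀ p, κ p → Matrix (Fin (d p)) (Fin (d p)) (K p),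
        (∀ p i, cmp (deg p i) (Z p i) ≠ 0) → (∀ p i, cmp (deg p i) (H p i) ≠ 0) →
        ∃ σ ∈ F, ∀ p ∈ T, ∀ i, c * (‖cmp (deg p i) (Z p i)‖ * ‖cmp (deg p i) (H p i)‖) ≤
          ‖cmp (deg p i) (Z p i * (ρs p σ : Matrix (Fin (d p)) (Fin (d p)) (K p)) * H p i)‖ := by
  classical
  induction T using Finset.induction_on with
  | empty => exact fun κ _ deg => ⟨{1}, 1, one_pos, fun Z H _ _ => ⟨1, mem_singleton_self _,
      fun p hp => absurd hp (notMem_empty p)⟩⟩
  | insert a T ha ih =>
    intro κ _ deg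
    obtain ⟨Fa, ca, hca, hFa⟩ := hfr a (κ a) (deg a)
    obtain ⟨G, cT, hcT, hG⟩ := ih (fun p => κ p × {σ // σ ∈ Fa}) fun p i => deg p i.1
    set S := ∑ σ ∈ Fa ∪ G, ∑ p ∈ insert a T, ∑ i : κ p,
      (Fintype.card (Sub (d p) (deg p i)) : ℝ) * ‖cm (ρs p) (deg p i) σ⁻¹‖ with hS
    have hS0 : 0 ≤ S := sum_nonneg fun _ _ => sum_nonneg fun _ _ => sum_nonneg fun _ _ => by
      positivity
    have hle : ∀ σ ∈ Fa ∪ G, ∀ p ∈ insert a T, ∀ i : κ p,
        (Fintype.card (Sub (d p) (deg p i)) : ℝ) * ‖cm (ρs p) (deg p i) σ⁻¹‖ ≤ S + 1 :=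
      fun σ hσ p hp i => (((single_le_sum (f := fun i : κ p =>
          (Fintype.card (Sub (d p) (deg p i)) : ℝ) * ‖cm (ρs p) (deg p i) σ⁻¹‖)
          (fun _ _ => by positivity) (mem_univ i)).trans
        (single_le_sum (f := fun p => ∑ i : κ p,
          (Fintype.card (Sub (d p) (deg p i)) : ℝ) * ‖cm (ρs p) (deg p i) σ⁻¹‖)
          (fun _ _ => sum_nonneg fun _ _ => by positivity) hp)).trans
        (single_le_sum (f := fun σ => ∑ p ∈ insert a T, ∑ i : κ p,
          (Fintype.card (Sub (d p) (deg p i)) : ℝ) * ‖cm (ρs p) (deg p i) σ⁻¹‖)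
          (fun _ _ => sum_nonneg fun _ _ => sum_nonneg fun _ _ => by positivity) hσ)).trans
        (le_add_of_nonneg_right zero_le_one)
    refine ⟨(Fa ×ˢ G).image fun e => e.1 * e.2, min ca cT / (S + 1), by positivity,
      fun Z H hZ hH => ?_⟩
    let X : ∀ p, Γ → Matrix (Fin (d p)) (Fin (d p)) (K p) := fun p g => (ρs p g : Matrix _ _ (K p))
    have hXX : ∀ p g, X p g * X p g⁻¹ = 1 := fun p g => by
      simp only [X]
      rw [← coe_mul, mul_inv_cancel, coe_one]
    have hne : ∀ p j g (M : Matrix (Fin (d p)) (Fin (d p)) (K p)),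
        cmp j M ≠ 0 → cmp j (M * X p g) ≠ 0 := fun p j g M hM h0 => hM (norm_eq_zero.1
      (le_antisymm ((cmp_norm_le_mul M (X p g) (X p g⁻¹) (hXX p g)).trans_eq
        (by rw [h0, norm_zero, zero_mul, mul_zero])) (norm_nonneg _)))
    obtain ⟨g, hg, hgT⟩ := hG (fun p i => Z p i.1 * X p i.2.1) (fun p i => H p i.1)
      (fun p i => hne p _ _ _ (hZ p i.1)) fun p i => hH p i.1
    have hHa : ∀ i, cmp (deg a i) (X a g * H a i) ≠ 0 := fun i h0 => hH a i (by
      have e : H a i = X a g⁻¹ * (X a g * H a i) := by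
        have := hXX a g⁻¹
        rw [inv_inv] at this
        rw [← Matrix.mul_assoc, this, Matrix.one_mul]
      rw [e, cmp_mul, h0, Matrix.mul_zero])
    obtain ⟨f, hf, hfa⟩ := hFa (Z a) (fun i => X a g * H a i) (hZ a) hHa
    refine ⟨f * g, mem_image.2 ⟨(f, g), mem_product.2 ⟨hf, hg⟩, rfl⟩, fun p hp i => ?_⟩
    have hS1 : 0 < S + 1 := by linarith
    rw [coe_mul, div_mul_eq_mul_div, div_le_iff₀ hS1]
    rcases mem_insert.1 hp with rfl | hpT
    · have h1 := hfa i
      have e : Z p i * ((ρs p f : Matrix _ _ (K p)) * (ρs p g : Matrix _ _ (K p))) * H p i =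
          Z p i * (ρs p f : Matrix _ _ (K p)) * (X p g * H p i) := by
        simp only [X, Matrix.mul_assoc]
      rw [e]
      have h3 : ‖cmp (deg p i) (H p i)‖ ≤
          (S + 1) * ‖cmp (deg p i) (X p g * H p i)‖ := by
        have e' : cmp (deg p i) (H p i) = cm (ρs p) (deg p i) g⁻¹ *
            cmp (deg p i) (X p g * H p i) := by
          rw [cm, ← cmp_mul, ← Matrix.mul_assoc]
          have := hXX p g⁻¹
          rw [inv_inv] at this
          rw [this, Matrix.one_mul]
        rw [e']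
        refine (norm_mul_le_card _ _).trans ?_
        rw [← mul_assoc]
        exact mul_le_mul_of_nonneg_right (hle g (mem_union_right _ hg) p hp i) (norm_nonneg _)
      calc min ca cT * (‖cmp (deg p i) (Z p i)‖ * ‖cmp (deg p i) (H p i)‖)
          ≤ ca * (‖cmp (deg p i) (Z p i)‖ * ((S + 1) * ‖cmp (deg p i) (X p g * H p i)‖)) := by
            gcongr
            · exact min_le_left _ _
        _ = (ca * (‖cmp (deg p i) (Z p i)‖ * ‖cmp (deg p i) (X p g * H p i)‖)) * (S + 1) := by ring
        _ ≤ _ := mul_le_mul_of_nonneg_right h1 hS1.le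
    · have h1 := hgT p hpT (i, ⟨f, hf⟩)
      simp only [X] at h1
      rw [← Matrix.mul_assoc (Z p i)]
      have h3 : ‖cmp (deg p i) (Z p i)‖ ≤
          (S + 1) * ‖cmp (deg p i) (Z p i * (ρs p f : Matrix _ _ (K p)))‖ := by
        refine (cmp_norm_le_mul _ _ _ (hXX p f)).trans ?_
        rw [mul_left_comm, mul_comm (S + 1)]
        exact mul_le_mul_of_nonneg_left (hle f (mem_union_left _ hf) p hp i) (norm_nonneg _)
      calc min ca cT * (‖cmp (deg p i) (Z p i)‖ * ‖cmp (deg p i) (H p i)‖)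
          ≤ cT * (((S + 1) * ‖cmp (deg p i) (Z p i * (ρs p f : Matrix _ _ (K p)))‖) *
              ‖cmp (deg p i) (H p i)‖) := by
            gcongr
            · exact min_le_right _ _
        _ = (cT * (‖cmp (deg p i) (Z p i * (ρs p f : Matrix _ _ (K p)))‖ *
              ‖cmp (deg p i) (H p i)‖)) * (S + 1) := by ring
        _ ≤ _ := mul_le_mul_of_nonneg_right h1 hS1.le

/-- Frames at every place give the joint estimate with tests of order one. -/
theorem est_of_frames [Fintype P] (hd : ∀ p, 0 < d p) (hfr : ∀ p, Frames (ρs p)) :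
    Multi.Est ρs := by
  classical
  intro q
  let κ : P → Type := fun p => Fin (d p + 1) ⊕ Fin q
  let deg : ∀ p, κ p → ℕ := fun p => Sum.elim (fun j => j.1) fun _ => 1
  obtain ⟨F, c, hc, hF⟩ := exists_joint_frames ρs hfr univ κ deg
  set g₀ : Γ → ∀ p, κ p → ℝ := fun σ p x => (Fintype.card (Sub (d p) (deg p x)) : ℝ) *
    ((Fintype.card (Sub (d p) (deg p x)) : ℝ) * ‖cm (ρs p) (deg p x) σ‖)
  have hg0 : ∀ σ p x, 0 ≤ g₀ σ p x := fun σ p x => by positivity
  set M : ℝ := 1 + ∑ σ ∈ F, ∑ p, ∑ x, g₀ σ p x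
  have hM : ∀ σ ∈ F, ∀ p x, g₀ σ p x ≤ M := fun σ hσ p x =>
    ((single_le_sum (fun x _ => hg0 σ p x) (mem_univ x)).trans
      ((single_le_sum (f := fun p => ∑ x, g₀ σ p x) (fun p _ => sum_nonneg fun x _ => hg0 σ p x)
        (mem_univ p)).trans
        (single_le_sum (f := fun σ => ∑ p, ∑ x, g₀ σ p x)
          (fun σ _ => sum_nonneg fun p _ => sum_nonneg fun x _ => hg0 σ p x) hσ))).trans
      (le_add_of_nonneg_left zero_le_one)
  have hM1 : 1 ≤ M := le_add_of_nonneg_right
    (sum_nonneg fun σ _ => sum_nonneg fun p _ => sum_nonneg fun x _ => hg0 σ p x)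
  refine ⟨F, |Real.log c| + Real.log M, add_nonneg (abs_nonneg _) (Real.log_nonneg hM1),
    fun Q z h => ?_⟩
  let R : ∀ p, κ p → Matrix (Fin (d p)) (Fin (d p)) (K p) := fun p =>
    Sum.elim (fun _ => 1) fun i => if Q p i = 0 then 1 else Q p i
  have hR : ∀ p x, cmp (deg p x) (R p x) ≠ 0 := by
    intro p x
    have : Nonempty (Fin (d p)) := ⟨⟨0, hd p⟩⟩
    rcases x with j | i
    · simp only [R, deg, Sum.elim_inl, cmp_one]
      have : Nonempty (Sub (d p) j) := sub_nonempty (Nat.le_of_lt_succ j.2)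
      exact (one_ne_zero : (1 : Matrix (Sub (d p) j) (Sub (d p) j) (K p)) ≠ 0)
    · simp only [R, deg, Sum.elim_inr]
      intro e
      have e' : ‖if Q p i = 0 then 1 else Q p i‖ = 0 := (norm_cmp_one _).symm.trans (norm_eq_zero.2 e)
      rw [norm_eq_zero] at e'
      split_ifs at e' with h0
      · exact one_ne_zero e'
      · exact h0 e'
  obtain ⟨σ, hσ, hs⟩ := hF
    (fun p x => R p x * (ρs p z : Matrix (Fin (d p)) (Fin (d p)) (K p)))
    (fun p _ => (ρs p h : Matrix (Fin (d p)) (Fin (d p)) (K p)))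
    (fun p x => by rw [cmp_mul]; exact test_ne (ρs p) (hR p x) z)
    (fun p x => by
      have hj : deg p x ≤ d p := by
        rcases x with j | i
        · exact Nat.le_of_lt_succ j.2
        · exact hd p
      exact norm_pos_iff.1 (norm_cm_pos (ρs p) hj h))
  refine ⟨σ, hσ, fun p => ?_⟩
  have key : ∀ x : κ p, deg p x ≤ d p →
      |lev (ρs p) (cmp (deg p x) (R p x)) (z * σ * h) -
        lev (ρs p) (cmp (deg p x) (R p x)) z - size (ρs p) (deg p x) h| ≤
          |Real.log c| + Real.log M := fun x hx => by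
    refine Multi.slot_le hx (hR p x) hc hM1 (hM σ hσ p x) ?_
    have := hs p (mem_univ p) x
    simp only [cm, coe_mul, ← cmp_mul, ← Matrix.mul_assoc] at this ⊢
    exact this
  refine ⟨fun j => ?_, fun i hi => ?_⟩
  · have e : ∀ g, lev (ρs p) (cmp (deg p (Sum.inl j)) (R p (Sum.inl j))) g = size (ρs p) j g := by
      intro g
      change Real.log ‖cmp j.1 (1 : Matrix (Fin (d p)) (Fin (d p)) (K p)) * cm (ρs p) j.1 g‖ =
        Real.log ‖cm (ρs p) j.1 g‖
      rw [cmp_one, Matrix.one_mul]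
    have := key (Sum.inl j) (Nat.le_of_lt_succ j.2)
    rw [e, e] at this
    exact this
  · have := key (Sum.inr i) (hd p)
    simp only [R, deg, Sum.elim_inr, if_neg hi, lev_one, size_one] at this
    exact this

end several

/-- Transversality over every extension at each place gives the joint estimate. -/
theorem est_of_transExt {P : Type} [Fintype P] {K : P → Type} [∀ p, NontriviallyNormedField (K p)]
    {d : P → ℕ} (ρs : ∀ p, Γ →* SL(d p, K p)) (hd : ∀ p, 0 < d p)
    (h : ∀ p, TransExt (ρs p)) : Multi.Est ρs :=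
  est_of_frames ρs hd fun p => frames_of_transExt (ρs p) (h p)

end Vale.Agent.P165.EX.Any
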