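import Vale.Agent.P165.EX.Any.Odd
import Vale.Agent.P165.EX.Multi.Bad

/-!
# Several places: small mass at small energy, without counting boxes

The elements of a window with small size form a finite set, which a long enough window makes
negligible. The others with small energy have a large gap at some place, and one range is good for
the covectors of all places. Neither local compactness nor a bound on the size of boxes is used.
-/

namespace Vale.Agent.P165.EX.Multi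

open Finset Matrix FF
open scoped Matrix.Norms.Elementwise MatrixGroups

variable {P : Type} [Fintype P] {k : P → Type} [∀ p, NontriviallyNormedField (k p)]
  {d : P → ℕ} {Γ : Type} [Group Γ] (ρ : ∀ p, Γ →* SL(d p, k p))
  {O ι : Type} [DecidableEq Γ] [DecidableEq O] [Fintype O] [Fintype ι]
  {G : SimpleGraph (Γ × O)} {nb : Γ × O → ι → Γ × O}

/-- The elements of small energy have small mass in one of finitely many windows, as soon as the
elements of each bounded size carry bounded mass. -/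
theorem exists_low_of_mass [Nonempty P] (hd : ∀ p, 0 < d p)
    (hfinite : ∃ C : ℝ, 0 ≤ C ∧
      ∀ (m : ℕ) o, 1 ≤ m → ∀ z ∈ QT.wball nb ((1 : Γ), o) m, sz ρ z.1 ≤ C * m)
    (hl : Labelling G nb) (hinv : Inv G) (hconn : G.Connected) (o₁ : O) {p : ℝ}
    (hs : FQ.Sub nb p)
    (hbox : ∀ t : ℕ, ∃ C : ℝ, ∀ q, p / 2 ≤ q → q < p → ∀ (o : O) (Z : Finset (Γ × O)),
      (∀ z ∈ Z, sz ρ z.1 ≤ t) → ∑ z ∈ Z, T nb q ((1 : Γ), o) z ≤ C)
    (hpush : PushBelow nb o₁ p) {F : Finset Γ} {A : ℝ} (hA : 0 ≤ A)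
    {Rel : Γ → Γ → Prop}
    (hchild : ∀ (Q : ∀ p, Fin 2 → Matrix (Fin (d p)) (Fin (d p)) (k p)) (w h : Γ), ∃ σ ∈ F,
        Rel (w * σ * h) w ∧ ∀ p,
          |lsize (ρ p) (w * σ * h) - lsize (ρ p) w - lsize (ρ p) h| ≤ A ∧
          ∀ i, Q p i ≠ 0 →
            |defect (ρ p) (Q p i) (w * σ * h) - defect (ρ p) (Q p i) w| ≤ A)
    (hmaster : MasterRel nb o₁ (p / 2) F Rel)
    (hvol : ∃ K : ℝ, 0 ≤ K ∧ ∀ m : ℕ, 1 ≤ m → ∀ q, p / 2 ≤ q → q < p → WinVolume nb q m K) :
    ∀ ε : ℝ, 0 < ε → ∃ Nmax : ℕ, ∀ q, p / 2 ≤ q → q < p →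
      ∃ m, 1 ≤ m ∧ m ≤ Nmax ∧ ∃ σ, 0 ≤ σ ∧ WinLow nb q m (energy ρ) σ ε := by
  classical
  intro ε hε
  choose Cbox hCbox using hbox
  obtain ⟨hp, hp1, hwit⟩ := hs
  have hh0 : 0 < p / 2 := by linarith
  have hh1 : p / 2 ≤ 1 := by linarith
  obtain ⟨Cw, hCw, hwin⟩ := hfinite
  obtain ⟨Cc, hCc, hmove⟩ := exists_move hl hconn o₁ hh0 hh1
  obtain ⟨K, hK, hV⟩ := hvol
  obtain ⟨C₁, hC₁, hMA⟩ := hmaster
  obtain ⟨S, hS, hpS⟩ := hpush (ε / (4 * (C₁ * K + 1))) (by positivity)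
  obtain ⟨CS, hCS, hM⟩ := hMA S hS
  set L : ℝ := Real.log (1 / (p / 2)) with hL
  have hL0 : 0 ≤ L := Real.log_nonneg (by rw [le_div_iff₀ hh0]; linarith)
  set NP : ℝ := (Fintype.card P : ℝ)
  have hNP : (1 : ℝ) ≤ NP := Nat.one_le_cast.2 Fintype.card_pos
  set δ : ℝ := min 1 (ε / (4 * (CS * (1 + L) * Cc * NP + 1))) with hδ
  have hδ0 : 0 < δ := lt_min one_pos (by positivity)
  set N : ℕ := ∑ p, d p
  have hN : ∀ p, d p ≤ N := fun p => single_le_sum (fun _ _ => Nat.zero_le _) (mem_univ p)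
  obtain ⟨J, hJ⟩ := exists_nat_gt (NP / δ ^ N)
  have hJ' : NP < (J : ℝ) * δ ^ N := by rwa [div_lt_iff₀ (pow_pos hδ0 N)] at hJ
  -- the ranges
  set lf : ℝ := ∑ p, Real.log ((d p).factorial : ℝ) with hlf
  have hlf0 : 0 ≤ lf := sum_nonneg fun p _ => Real.log_natCast_nonneg _
  have hlfp : ∀ p, Real.log ((d p).factorial : ℝ) ≤ lf := fun p =>
    single_le_sum (f := fun p => Real.log ((d p).factorial : ℝ))
      (fun p _ => Real.log_natCast_nonneg _) (mem_univ p)
  set C₀ : ℝ := Cw + 1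
  have hC₀ : 0 < C₀ := by positivity
  set ec : ℝ := ∑ p, (Real.log (d p) + Real.log ((d p).factorial : ℝ)) with hec
  have hec0 : 0 ≤ ec := sum_nonneg fun p _ =>
    add_nonneg (Real.log_natCast_nonneg _) (Real.log_natCast_nonneg _)
  set hiF : ℕ → ℝ := fun m => ((N : ℝ) + 1) * (C₀ * m + lf) + ec + A + 1 with hhiF
  set loF : ℕ → ℝ := fun t => (t : ℝ) / (4 * NP) - A with hloF
  set cN : ℝ := Real.log (3 * ((N : ℝ) + 1)) with hcN
  have hcN0 : 0 ≤ cN := Real.log_nonneg (by linarith [(N.cast_nonneg : (0 : ℝ) ≤ N)])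
  set win : ℕ → ℕ := fun t =>
    max t ⌈4 * Cbox t / ε⌉₊ + 1 with hwinF
  set t₀ : ℕ := ⌈4 * lf⌉₊ with ht₀
  obtain ⟨st, hst₀, hst⟩ : ∃ st : ℕ → ℕ, (∀ i, t₀ ≤ st i) ∧
      ∀ i, N * (hiF (win (st i)) + cN) ≤ loF (st (i + 1)) := by
    refine ⟨fun i => i.rec t₀ fun _ t => max t₀ ⌈4 * NP * (N * (hiF (win t) + cN) + A)⌉₊,
      fun i => ?_, fun i => ?_⟩
    · cases i with
      | zero => exact le_rfl
      | succ i => exact le_max_left _ _
    · simp only [hloF]
      set t : ℕ := Nat.rec t₀ (fun _ t => max t₀ ⌈4 * NP * (N * (hiF (win t) + cN) + A)⌉₊) i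
      have h : 4 * NP * (N * (hiF (win t) + cN) + A) ≤
          ((max t₀ ⌈4 * NP * (N * (hiF (win t) + cN) + A)⌉₊ : ℕ) : ℝ) :=
        (Nat.le_ceil _).trans (Nat.cast_le.2 (le_max_right _ _))
      rw [le_sub_iff_add_le, le_div_iff₀ (by positivity)]
      linarith
  set w : ℕ → ℕ := fun i => win (st i) with hw
  refine ⟨(range J).sup w, fun q hq hqp => ?_⟩
  have hq0 : 0 ≤ q := hh0.le.trans hq
  have hq1 : q ≤ 1 := hqp.le.trans hp1
  obtain ⟨U, hU1, hU⟩ := rowsExistsHalf hl hinv o₁ hq0 hq1 (hwit q hq0 hqp)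
  have hU0 : (0 : ℝ) < 2 * ∑ g ∈ U, anc nb o₁ q g := by linarith
  set all : Finset Γ := (range J).biUnion fun i => (univ : Finset O).biUnion fun o =>
    Finset.image (fun u : (((Γ × O) × Γ) × Γ) × Γ =>
      u.1.1.1.1 * u.1.1.2 * (u.1.2 * u.2)) (((QT.wball nb ((1 : Γ), o) (w i) ×ˢ F) ×ˢ S) ×ˢ U)
  have hne : ∀ p, Nonempty (Fin (d p)) := fun p => ⟨⟨0, hd p⟩⟩
  obtain ⟨i, hiJ, hgood⟩ := exists_covector_scale (P := P) (k := k) (fun p => Fin (d p))
    (fun p y => (ρ p y : Matrix (Fin (d p)) (Fin (d p)) (k p))) all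
    (fun y => anc nb o₁ q y / (2 * ∑ g ∈ U, anc nb o₁ q g))
    (fun y _ => div_nonneg (anc_nonneg o₁ hq0 hq1 y) hU0.le)
    (by rw [← sum_div, div_le_one hU0]; exact hU all) (fun i => loF (st i)) (fun i => hiF (w i))
    (fun i => by
      simp only [hloF, hhiF]
      have h0 : (st i : ℝ) ≤ w i :=
        Nat.cast_le.2 ((le_max_left _ _).trans (Nat.le_add_right _ 1))
      have h1 : (st i : ℝ) / (4 * NP) ≤ C₀ * w i :=
        (div_le_self (Nat.cast_nonneg _) (by linarith)).trans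
          (h0.trans (le_mul_of_one_le_left (Nat.cast_nonneg _) (le_add_of_nonneg_left hCw)))
      have h2 : C₀ * w i + lf ≤ ((N : ℝ) + 1) * (C₀ * w i + lf) :=
        le_mul_of_one_le_left (by positivity) (le_add_of_nonneg_left (Nat.cast_nonneg _))
      linarith)
    (fun i => by simp only [hhiF]; positivity)
    (fun i p => by
      refine le_trans ?_ (hst i)
      rw [Fintype.card_fin]
      refine mul_le_mul (Nat.cast_le.2 (hN p)) (add_le_add le_rfl (Real.log_le_log (by positivity)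
        (mul_le_mul_of_nonneg_left (add_le_add (Nat.cast_le.2 (hN p)) le_rfl) (by norm_num)))) ?_
        (Nat.cast_nonneg _)
      refine add_nonneg (by simp only [hhiF]; positivity) (Real.log_nonneg ?_)
      linarith [((d p).cast_nonneg : (0 : ℝ) ≤ d p)])
    hδ0.le (min_le_left _ _) (fun p => by simpa using hN p) hJ'
  have hm1 : 1 ≤ w i := Nat.le_add_left 1 _
  refine ⟨w i, hm1, le_sup (f := w) (mem_range.2 hiJ), (st i : ℝ) / 2, by positivity, fun x o => ?_⟩
  choose ψ hψ hle using fun p => hgood p (x p).1 (x p).2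
  let Qt : ∀ p, Fin 2 → Matrix (Fin (d p)) (Fin (d p)) (k p) :=
    fun p => ![rowsOf (x p).1, rowsOf (ψ p)]
  choose R hR1 hR2 hR3 using hchild Qt
  set band : P → Finset Γ := fun p => all.filter fun y =>
    loF (st i) ≤ gap (ρ p) (x p) y ∧ ¬hiF (w i) ≤ gap (ρ p) ⟨ψ p, hψ p⟩ y with hband
  set Y := (univ : Finset P).biUnion band
  have hY : ∑ y ∈ Y, anc nb o₁ q y ≤ 2 * δ * NP * ∑ g ∈ U, anc nb o₁ q g := by
    refine (sum_biUnion_le_sum univ band _ fun y => anc_nonneg o₁ hq0 hq1 y).trans ?_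
    refine (sum_le_card_nsmul _ _ (2 * δ * ∑ g ∈ U, anc nb o₁ q g) fun p _ => ?_).trans
      (le_of_eq ?_)
    swap
    · rw [card_univ, nsmul_eq_mul]; ring
    have h := hle p
    rw [← sum_div, div_le_iff₀ hU0] at h
    refine le_trans (le_of_eq (sum_congr (filter_congr fun y _ => ?_) fun _ _ => rfl))
      (h.trans (le_of_eq (by ring)))
    rw [← dep_iff (ρ p) (hd p) (x p) y, ← dep_iff (ρ p) (hd p) ⟨ψ p, hψ p⟩ y]
  have hlogn : lf ≤ (st i : ℝ) / 4 := by
    have h : 4 * lf ≤ (st i : ℝ) := (Nat.le_ceil _).trans (Nat.cast_le.2 (hst₀ i))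
    linarith
  have h := mass_le (c := 2 * δ * NP) hCS (pow_pos hh0 (w i)) (pow_le_one₀ hh0.le hh1) hCc hU1
    (hM q hq hq1 (hwit q hq0 hqp) _ (by positivity) (hpS q hq hqp) U hU (w i) o
      ((QT.wball nb ((1 : Γ), o) (w i)).filter fun z =>
        energy ρ x z.1 ≤ (st i : ℝ) / 2 ∧ ¬sz ρ z.1 ≤ st i) (filter_subset _ _)
      ((p / 2) ^ w i) (pow_pos hh0 _) (pow_le_one₀ hh0.le hh1)
      (fun z hz => (pow_le_pow_left₀ hh0.le hq _).trans
        (rowsPowLeT hl hq0 hq1 (mem_filter.1 hz).1))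
      R (fun z h => ⟨hR1 z h, hR2 z h⟩) Y fun z hz g hg h hh => by
        obtain ⟨hzb, hEz, hbig⟩ := mem_filter.1 hz
        obtain ⟨π, hπ⟩ := exists_gap ρ hd (lt_of_not_ge hbig) hEz hlogn
        have hd1 := (hR3 z.1 (g * h) π).2
        have d1 := abs_le.1 (hd1 0 (by simpa [Qt] using rowsOf_ne_zero (hd π) (x π).2))
        have d2 := abs_le.1 (hd1 1 (by simpa [Qt] using rowsOf_ne_zero (hd π) (hψ π)))
        simp only [Qt, Matrix.cons_val_zero, Matrix.cons_val_one] at d1 d2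
        have e1 := gap_sub (ρ π) (hd π) (x π) (z.1 * R z.1 (g * h) * (g * h)) z.1
        have e2 := gap_sub (ρ π) (hd π) ⟨ψ π, hψ π⟩ (z.1 * R z.1 (g * h) * (g * h)) z.1
        simp only at e1 e2
        refine mem_biUnion.2 ⟨π, mem_univ _, mem_filter.2 ⟨mem_biUnion.2 ⟨i, mem_range.2 hiJ,
          mem_biUnion.2 ⟨o, mem_univ o, mem_image.2 ⟨(((z, R z.1 (g * h)), g), h),
            by simp [hzb, hR1 z.1 (g * h), hg, hh], rfl⟩⟩⟩, ?_, not_le.2 ?_⟩⟩
        · simp only [hloF]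
          linarith
        · have hb := gap_le (ρ π) (hd π) ⟨ψ π, hψ π⟩ z.1
          have hsz := hwin _ o hm1 z hzb
          have hls : |lsize (ρ π) z.1| ≤ C₀ * w i + lf := by
            refine (abs_lsize_le_sz ρ hd z.1 π).trans (add_le_add ?_ (hlfp π))
            exact hsz.trans (mul_le_mul_of_nonneg_right (le_add_of_nonneg_right zero_le_one)
              (Nat.cast_nonneg _))
          have h1 := mul_le_mul (add_le_add (Nat.cast_le (α := ℝ) |>.2 (hN π)) (le_refl (1 : ℝ)))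
            hls (abs_nonneg _) (by positivity)
          have h2 : Real.log (d π : ℝ) + Real.log ((d π).factorial : ℝ) ≤ ec :=
            single_le_sum (f := fun p => Real.log (d p : ℝ) + Real.log ((d p).factorial : ℝ))
              (fun p _ => add_nonneg (Real.log_natCast_nonneg _) (Real.log_natCast_nonneg _))
              (mem_univ π)
          simp only [hhiF]
          linarith)
    (hmove q hq hq1 o Y) hY
  rw [show Real.log (1 / (p / 2) ^ w i) = w i * L by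
    rw [hL, one_div, one_div, Real.log_inv, Real.log_inv, Real.log_pow, mul_neg]] at h
  have hε1 : C₁ * (ε / (4 * (C₁ * K + 1))) * K ≤ ε / 4 := by
    rw [mul_div_assoc', div_mul_eq_mul_div, div_le_div_iff₀ (by positivity) four_pos]
    linarith
  have hV' := (mul_le_mul_of_nonneg_left (hV (w i) hm1 q hq hqp o)
    (show 0 ≤ C₁ * (ε / (4 * (C₁ * K + 1))) by positivity)).trans
      (le_of_eq_of_le (mul_assoc _ _ _).symm
        (mul_le_mul_of_nonneg_right hε1 (Nat.cast_nonneg (w i))))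
  have hd' : CS * (1 + L) * Cc * NP * δ ≤ ε / 4 := by
    refine (mul_le_mul_of_nonneg_left (min_le_right _ _) (by positivity)).trans ?_
    rw [mul_div_assoc', div_le_div_iff₀ (by positivity) four_pos]
    linarith
  have hm' : (1 : ℝ) ≤ w i := Nat.one_le_cast.2 hm1
  have h1 := mul_le_mul_of_nonneg_right hd' (Nat.cast_nonneg (α := ℝ) (w i))
  have h2 : 0 ≤ CS * ((w i : ℝ) - 1) * (Cc * δ * NP) :=
    mul_nonneg (mul_nonneg hCS (sub_nonneg.2 hm')) (by positivity)
  have h3 : 0 ≤ ε * (w i : ℝ) := by positivity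
  rw [← sum_filter_add_sum_filter_not _ fun z => sz ρ z.1 ≤ st i, filter_filter, filter_filter]
  have hsm : ∑ z ∈ (QT.wball nb ((1 : Γ), o) (w i)).filter
      (fun z => energy ρ x z.1 ≤ (st i : ℝ) / 2 ∧ sz ρ z.1 ≤ st i), winT nb q (w i) o z ≤
        ε / 4 * w i := by
    refine (sum_le_sum fun z _ => le_T hq0 hq1 _ _ _).trans
      ((hCbox (st i) q hq hqp o _ fun z hz => (mem_filter.1 hz).2.2).trans ?_)
    have h4 : 4 * Cbox (st i) / ε ≤ w i :=
      (Nat.le_ceil _).trans (Nat.cast_le.2 ((le_max_right _ _).trans (Nat.le_add_right _ 1)))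
    rw [div_le_iff₀ hε] at h4
    linarith
  linarith

end Vale.Agent.P165.EX.Multi
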