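import Vale.Agent.P165.EX.Rows

/-!
# Rows weighted by an odd step of the cocycle

The weight of the pair `(x, y)` is `exp (-θ)` if the cocycle grows from `x` to `y` by more than `σ`,
`exp θ` if it drops by more, and one between. It is inverse to the weight of `(y, x)`, so Schur's test
applies. No lower bound on the cocycle is needed: linear volume bounds the rows at the vertices
where it is large, and a small mass of the others does the rest.
-/

namespace Vale.Agent.P165.EX

open Finset FF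

variable {Γ O ι X : Type} [Group Γ] [DecidableEq Γ] [DecidableEq O] [Fintype ι]
  {G : SimpleGraph (Γ × O)} {nb : Γ × O → ι → Γ × O}

/-- The odd step at `σ`. -/
noncomputable def oddStep (σ t : ℝ) : ℝ := if σ < t then 1 else if t < -σ then -1 else 0

theorem oddStep_neg {σ : ℝ} (hσ : 0 ≤ σ) (t : ℝ) : oddStep σ (-t) = -oddStep σ t := by
  simp only [oddStep]
  split_ifs <;> linarith

theorem neg_one_le_oddStep (σ t : ℝ) : -1 ≤ oddStep σ t := by
  simp only [oddStep]
  split_ifs <;> norm_num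

/-- The elements of a window with small cocycle carry at most `ε n`. -/
def WinLow (nb : Γ × O → ι → Γ × O) (q : ℝ) (n : ℕ) (En : X → Γ → ℝ) (σ ε : ℝ) : Prop :=
  ∀ (x : X) (o : O), ∑ z ∈ (QT.wball nb ((1 : Γ), o) n).filter (fun z => En x z.1 ≤ σ),
    winT nb q n o z ≤ ε * n

/-- Linear volume and a small mass at small cocycle give a small form. -/
theorem formSmall_of_low [Nonempty X] (hl : Labelling G nb) (hinv : Inv G) {En : X → Γ → ℝ}
    (hco : ∀ x g, ∃ x', ∀ h, En x (g * h) = En x g + En x' h) {q : ℝ} (h0 : 0 ≤ q) (h1 : q ≤ 1)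
    {n : ℕ} {K σ ε θ : ℝ} (hσ : 0 ≤ σ) (hθ : 0 ≤ θ) (hvol : WinVolume nb q n K)
    (hlow : WinLow nb q n En σ ε) (hnum : Real.exp (-θ) * K + Real.exp θ * ε ≤ 1 / 4) :
    FQ.FormSmall nb (fun x => QT.wball nb x n) n q (1 / 4) := by
  classical
  intro F f hf
  obtain ⟨x₀⟩ := (inferInstance : Nonempty X)
  set a : Γ × O → Γ × O → ℝ := fun x y =>
    Real.exp (-θ * oddStep σ (En x₀ y.1 - En x₀ x.1)) with ha
  have hinvA : ∀ x y, a x y * a y x = 1 := fun x y => by
    rw [ha]
    simp only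
    rw [← Real.exp_add, ← mul_add, ← neg_sub (En x₀ y.1), oddStep_neg hσ, add_neg_cancel,
      mul_zero, Real.exp_zero]
  set t : Γ × O → Γ × O → ℝ := fun x y => tau nb q n x y
  have ht : ∀ x y, 0 ≤ t x y := fun x y => tauW_nonneg h0 h1 n x y
  have htc : ∀ x y, t x y = t y x := fun x y => tau_comm hl h0 h1 n x y
  have hpt : ∀ x y, f x * f y * t x y ≤
      (f x ^ 2 * (t x y * a x y) + f y ^ 2 * (t y x * a y x)) / 2 := by
    intro x y
    have h := hinvA x y
    have h2 := mul_nonneg (ht x y) (mul_nonneg (Real.exp_pos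
      (-θ * oddStep σ (En x₀ y.1 - En x₀ x.1))).le (sq_nonneg (f x - f y * a y x)))
    rw [← htc x y]
    have e : t x y * (a x y * (f x - f y * a y x) ^ 2) =
        f x ^ 2 * (t x y * a x y) + f y ^ 2 * (t x y * a y x) * (a x y * a y x) -
          2 * (f x * f y * t x y) * (a x y * a y x) := by ring
    rw [h, mul_one, mul_one] at e
    linarith
  have hrow : ∀ x, ∑ y ∈ F, t x y * a x y ≤ 1 / 4 * n := by
    intro x
    obtain ⟨x', hx'⟩ := hco x₀ x.1
    set w : Γ × O → ℝ := fun y => Real.exp (-θ * oddStep σ (En x' y.1))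
    set o := x.2
    set Q := QT.wball nb ((1 : Γ), o) n with hQ
    have hw0 : ∀ y, 0 ≤ w y := fun y => (Real.exp_pos _).le
    have hb0 : ∀ y, 0 ≤ winT nb q n o y := fun y => tauIn_nonneg _ h0 h1 _ _
    have hbase : ∑ y ∈ F, t x y * a x y =
        ∑ y ∈ F.image (tr x.1⁻¹), tau nb q n ((1 : Γ), o) y * w y := by
      rw [sum_image fun a _ b _ h => tr_injective x.1⁻¹ h]
      refine sum_congr rfl fun y _ => ?_
      have e : En x₀ y.1 - En x₀ x.1 = En x' (x.1⁻¹ * y.1) := by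
        have := hx' (x.1⁻¹ * y.1)
        rw [mul_inv_cancel_left] at this
        linarith
      simp only [t, w, a, e]
      rw [tau_base hl hinv q n x y]
      rfl
    rw [hbase]
    refine (sum_le_sum (g := fun y => (if y ∈ Q then winT nb q n o y else 0) * w y)
      fun y _ => mul_le_mul_of_nonneg_right ?_ (hw0 y)).trans ?_
    · by_cases hy : y ∈ Q
      · rw [if_pos hy]
        exact FQ.tauW_le_tauIn _ h0 h1 _ _ _
      · rw [if_neg hy, tau, FQ.tauW_eq_zero hl (QT.covers_wball hl n) _ q fun h => hy h.1]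
    simp only [ite_mul, zero_mul, ← sum_filter]
    refine (sum_le_sum_of_subset_of_nonneg (t := Q) (fun y hy => (mem_filter.1 hy).2)
      fun y _ _ => mul_nonneg (hb0 y) (hw0 y)).trans ?_
    rw [← sum_filter_add_sum_filter_not Q fun z => En x' z.1 ≤ σ]
    have h1' : ∑ z ∈ Q.filter (fun z => En x' z.1 ≤ σ), winT nb q n o z * w z ≤
        ε * n * Real.exp θ := by
      refine (sum_le_sum (g := fun z => winT nb q n o z * Real.exp θ) fun z _ =>
        mul_le_mul_of_nonneg_left (Real.exp_le_exp.2 ?_) (hb0 z)).trans ?_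
      · have := mul_le_mul_of_nonneg_left (neg_one_le_oddStep σ (En x' z.1)) hθ
        linarith
      · rw [← sum_mul]
        exact mul_le_mul_of_nonneg_right (hlow x' o) (Real.exp_pos _).le
    have h2' : ∑ z ∈ Q.filter (fun z => ¬En x' z.1 ≤ σ), winT nb q n o z * w z ≤
        K * n * Real.exp (-θ) := by
      refine (sum_le_sum (g := fun z => winT nb q n o z * Real.exp (-θ)) fun z hz =>
        mul_le_mul_of_nonneg_left (le_of_eq ?_) (hb0 z)).trans ?_
      · simp only [w, oddStep, if_pos (lt_of_not_ge (mem_filter.1 hz).2), mul_one]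
      · rw [← sum_mul]
        exact mul_le_mul_of_nonneg_right ((sum_le_sum_of_subset_of_nonneg (filter_subset _ _)
          fun z _ _ => hb0 z).trans (hvol o)) (Real.exp_pos _).le
    have := mul_le_mul_of_nonneg_right hnum (Nat.cast_nonneg (α := ℝ) n)
    linarith
  calc ∑ x ∈ F, ∑ y ∈ F, f x * f y * FQ.tauW nb (QT.wball nb x n) q x y n
      ≤ ∑ x ∈ F, ∑ y ∈ F, (f x ^ 2 * (t x y * a x y) + f y ^ 2 * (t y x * a y x)) / 2 :=
        sum_le_sum fun x _ => sum_le_sum fun y _ => hpt x y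
    _ = ∑ x ∈ F, f x ^ 2 * ∑ y ∈ F, t x y * a x y := by
        simp only [← sum_div, sum_add_distrib, mul_sum]
        rw [sum_comm (f := fun x y => f y ^ 2 * (t y x * a y x))]
        ring
    _ ≤ ∑ x ∈ F, f x ^ 2 * (1 / 4 * n) :=
        sum_le_sum fun x _ => mul_le_mul_of_nonneg_left (hrow x) (sq_nonneg _)
    _ = _ := by rw [← sum_mul, mul_comm]

/-- Linear volume and small mass at small cocycle in one of finitely many windows give small
forms. -/
theorem formsBelow_of_low [Nonempty X] (hl : Labelling G nb) (hinv : Inv G) {p : ℝ} (hp : 0 < p)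
    (hp1 : p ≤ 1) {En : X → Γ → ℝ} (hco : ∀ x g, ∃ x', ∀ h, En x (g * h) = En x g + En x' h)
    (hvol : ∃ K : ℝ, 0 ≤ K ∧ ∀ n : ℕ, 1 ≤ n → ∀ q, p / 2 ≤ q → q < p → WinVolume nb q n K)
    (hlow : ∀ ε : ℝ, 0 < ε → ∃ Nmax : ℕ, ∀ q, p / 2 ≤ q → q < p →
      ∃ n, 1 ≤ n ∧ n ≤ Nmax ∧ ∃ σ, 0 ≤ σ ∧ WinLow nb q n En σ ε) :
    FormsBelow nb p := by
  obtain ⟨K, hK, hV⟩ := hvol
  obtain ⟨θ, hθ, hθK⟩ : ∃ θ : ℝ, 0 ≤ θ ∧ Real.exp (-θ) * K ≤ 1 / 8 := by
    refine ⟨8 * K, by positivity, ?_⟩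
    rw [Real.exp_neg, inv_mul_le_iff₀ (Real.exp_pos _)]
    linarith [Real.add_one_le_exp (8 * K)]
  obtain ⟨Nmax, hN⟩ := hlow (1 / (8 * Real.exp θ)) (by positivity)
  refine ⟨Finset.Icc 1 Nmax, fun q hq hq' => ?_⟩
  obtain ⟨n, hn1, hnN, σ, hσ, hlowq⟩ := hN q hq hq'
  refine ⟨n, Finset.mem_Icc.2 ⟨hn1, hnN⟩, hn1,
    formSmall_of_low hl hinv hco (by linarith) (hq'.le.trans hp1) hσ hθ (hV n hn1 q hq hq') hlowq ?_⟩
  have e : Real.exp θ * (1 / (8 * Real.exp θ)) = 1 / 8 := by field_simp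
  linarith

end Vale.Agent.P165.EX
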