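import Vale.Agent.P165.EX.Any.Low
import Vale.Agent.P165.EX.Trans.Main

/-!
# A phase from frames over any normed fields

Frames along which sizes and tests of order one add give flat mass, children and linear volume over
any normed fields. With finitely many elements in every box a long window makes the small elements
negligible, so neither local compactness nor any count of the boxes is needed.
-/

namespace Vale.Agent.P165.EX.Multi

open Finset FF
open scoped Matrix.Norms.Elementwise MatrixGroups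

variable {P : Type} [Fintype P] [Nonempty P] {k : P → Type} [∀ p, NontriviallyNormedField (k p)]
  {d : P → ℕ} {Γ : Type} [Group Γ]

section Chart

variable {O ι : Type} [DecidableEq Γ] [DecidableEq O] [Fintype ι] [Infinite Γ]
  [Fintype O] [Nonempty O] {G : SimpleGraph (Γ × O)} {nb : Γ × O → ι → Γ × O}

/-- Children along any relation with bounded flat mass and bubble give small forms, as soon as the elements of each bounded size carry bounded mass. -/
theorem formsBelow_of_mass (ρ : ∀ p, Γ →* SL(d p, k p)) (hd : ∀ p, 0 < d p)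
    (hl : Labelling G nb) (hinv : Inv G) (hconn : G.Connected) {p : ℝ} (hs : FQ.Sub nb p)
    {F : Finset Γ} {A : ℝ} (hA : 0 ≤ A) {Rel : Γ → Γ → Prop}
    (hbox : ∀ t : ℕ, ∃ C : ℝ, ∀ q, p / 2 ≤ q → q < p → ∀ (o : O) (Z : Finset (Γ × O)),
      (∀ z ∈ Z, sz ρ z.1 ≤ t) → ∑ z ∈ Z, T nb q ((1 : Γ), o) z ≤ C)
    (hchild : ∀ (Q : ∀ p, Fin 2 → Matrix (Fin (d p)) (Fin (d p)) (k p)) (w h : Γ), ∃ σ ∈ F,
      Rel (w * σ * h) w ∧ ∀ p,
        |lsize (ρ p) (w * σ * h) - lsize (ρ p) w - lsize (ρ p) h| ≤ A ∧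
        ∀ i, Q p i ≠ 0 → |defect (ρ p) (Q p i) (w * σ * h) - defect (ρ p) (Q p i) w| ≤ A)
    (hflat : ∃ C : ℝ, 0 ≤ C ∧ ∀ q, p / 2 ≤ q → q ≤ 1 → Witness nb q →
      ∀ (y : Γ) (w : Γ × O) (o' : O) (Z : Finset Γ), (∀ z ∈ Z, Rel y z) →
        ∑ z ∈ Z, T nb q w (z, o') ≤ C)
    (hbubble : ∃ C : ℝ, ∀ q, p / 2 ≤ q → q ≤ 1 → Witness nb q →
      ∀ (w : Γ × O) (o' : O) (Z : Finset Γ), ∑ z ∈ Z, T nb q w (z, o') ^ 2 ≤ C) :
    FormsBelow nb p := by
  classical
  obtain ⟨o₁⟩ := ‹Nonempty O›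
  have hh0 : 0 < p / 2 := by linarith [hs.1]
  have hh1 : p / 2 ≤ 1 := by linarith [hs.1, hs.2.1]
  have hmaster : MasterRel nb o₁ (p / 2) F Rel :=
    master_of_flat hl hinv hconn o₁ hh0 hh1 F Rel hflat
  obtain ⟨Cbub, hbub⟩ := hbubble
  have hpush : PushBelow nb o₁ p := fun ε hε => exists_push hl hinv o₁ hh0.le hs.2.1
    (fun q hq hq' => hbub q hq (hq'.le.trans hs.2.1) (hs.2.2 q (hh0.le.trans hq) hq')) hε
  have hR : ∃ R : Γ → Γ → Γ, ∀ z h, R z h ∈ F ∧ Rel (z * R z h * h) z := by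
    choose R h1 h2 _ using hchild fun _ => 0
    exact ⟨R, fun z h => ⟨h1 z h, h2 z h⟩⟩
  have hvol := exists_volume hl hinv hconn o₁ hs hpush hR hmaster
  have : Nonempty (State k d) := state_nonempty hd
  exact formsBelow_of_low hl hinv hs.1 hs.2.1 (energy_cocycle ρ) hvol
    (exists_low_of_mass ρ hd (sz_window ρ hd hl hinv) hl hinv hconn o₁ hs hbox hpush hA hchild hmaster
      hvol)

/-- Children along any relation with bounded flat mass and bubble give small forms. -/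
theorem formsBelow_of_rel (ρ : ∀ p, Γ →* SL(d p, k p)) (hd : ∀ p, 0 < d p) (hfin : BoxFinite ρ)
    (hl : Labelling G nb) (hinv : Inv G) (hconn : G.Connected) {p : ℝ} (hs : FQ.Sub nb p)
    {F : Finset Γ} {A : ℝ} (hA : 0 ≤ A) {Rel : Γ → Γ → Prop}
    (hchild : ∀ (Q : ∀ p, Fin 2 → Matrix (Fin (d p)) (Fin (d p)) (k p)) (w h : Γ), ∃ σ ∈ F,
      Rel (w * σ * h) w ∧ ∀ p,
        |lsize (ρ p) (w * σ * h) - lsize (ρ p) w - lsize (ρ p) h| ≤ A ∧
        ∀ i, Q p i ≠ 0 → |defect (ρ p) (Q p i) (w * σ * h) - defect (ρ p) (Q p i) w| ≤ A)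
    (hflat : ∃ C : ℝ, 0 ≤ C ∧ ∀ q, p / 2 ≤ q → q ≤ 1 → Witness nb q →
      ∀ (y : Γ) (w : Γ × O) (o' : O) (Z : Finset Γ), (∀ z ∈ Z, Rel y z) →
        ∑ z ∈ Z, T nb q w (z, o') ≤ C)
    (hbubble : ∃ C : ℝ, ∀ q, p / 2 ≤ q → q ≤ 1 → Witness nb q →
      ∀ (w : Γ × O) (o' : O) (Z : Finset Γ), ∑ z ∈ Z, T nb q w (z, o') ^ 2 ≤ C) :
    FormsBelow nb p := by
  classical
  refine formsBelow_of_mass ρ hd hl hinv hconn hs hA (fun t => ?_) hchild hflat hbubble
  have hfint : {g : Γ | sz ρ g ≤ t}.Finite :=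
    (hfin (Real.exp t)).subset fun g (hg : sz ρ g ≤ t) π => by
      rw [← Real.exp_log (norm_pos (ρ π) (hd π) g)]
      exact Real.exp_le_exp.2 ((lsize_le_sz ρ g π).trans hg)
  refine ⟨((hfint.toFinset ×ˢ (univ : Finset O)).card : ℝ), fun q hq hqp o Z hZ => ?_⟩
  refine (sum_le_card_nsmul _ _ 1 fun z _ => ciSup_le fun S => tauIn_le_one S
    (by linarith [hs.1]) (by linarith [hs.2.1]) _ _).trans ?_
  rw [nsmul_one]
  exact Nat.cast_le.2 (card_le_card fun z hz => mem_product.2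
    ⟨hfint.mem_toFinset.2 (hZ z hz), mem_univ _⟩)

/-- Frames give small forms in finitely many windows. -/
theorem formsBelow_est (ρ : ∀ p, Γ →* SL(d p, k p)) (hd : ∀ p, 0 < d p) (hest : Est ρ)
    (hfin : BoxFinite ρ) (hl : Labelling G nb) (hinv : Inv G) (hconn : G.Connected) {p : ℝ}
    (hs : FQ.Sub nb p) : FormsBelow nb p := by
  have hh0 : 0 < p / 2 := by linarith [hs.1]
  have hh1 : p / 2 ≤ 1 := by linarith [hs.1, hs.2.1]
  obtain ⟨F, A, hA, hchild⟩ := exists_child_est ρ hd hest 2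
  exact formsBelow_of_rel ρ hd hfin hl hinv hconn hs hA hchild
    (flat_mass_est ρ hl hinv hconn hd hest hfin hh0 hh1 F A)
    (bubble_mass_est ρ hl hinv hconn hd hest hfin hh0 hh1)

end Chart

/-- Frames and finite joint boxes give a phase to an infinite group, over any normed fields. -/
theorem nonuniquePhase_of_est_any (hd : ∀ p, 0 < d p) [Infinite Γ] (ρ : ∀ p, Γ →* SL(d p, k p))
    (hest : Est ρ) (hfin : BoxFinite ρ) : SG.NonuniquePhase Γ := by
  classical
  exact nonuniquePhase_of_forms fun O _ _ _ D G nb hl hinv hconn p hs =>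
    formsBelow_est ρ hd hest hfin hl hinv hconn hs

end Vale.Agent.P165.EX.Multi
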