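import Vale.Agent.P165.EX.Any.Frames
import Vale.Agent.P165.EX.Any.Rows

/-!
# A phase from transversality, over any normed fields

At each place either transversality holds over every extension field, or the field is proper and it
holds over the field itself. With finitely many elements in every product of boxes this gives a
nonuniqueness phase; no local compactness is needed in the first case.
-/

namespace Vale.Agent.P165.EX.Any

open scoped Matrix.Norms.Elementwise MatrixGroups

variable {Γ : Type} [Group Γ]

/-- Transversality over a proper field gives frames. -/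
theorem frames_of_trans {k : Type} [NontriviallyNormedField k] [ProperSpace k] {n : ℕ}
    (ρ : Γ →* SL(n, k)) (htr : Trans ρ) : Frames ρ :=
  fun _ _ deg => exists_frames_trans ρ htr deg

section several

variable {P : Type} [Fintype P] [Nonempty P] {K : P → Type} [∀ p, NontriviallyNormedField (K p)]
  {d : P → ℕ} (ρs : ∀ p, Γ →* SL(d p, K p))

/-- Frames at every place and finite joint boxes give a phase to an infinite group. -/
theorem nonuniquePhase_of_frames [Infinite Γ] (hd : ∀ p, 0 < d p) (hfr : ∀ p, Frames (ρs p))
    (hfin : Multi.BoxFinite ρs) : SG.NonuniquePhase Γ :=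
  Multi.nonuniquePhase_of_est_any hd ρs (est_of_frames ρs hd hfr) hfin

/-- At each place transversality over every extension, or over the field itself if that is proper. -/
theorem nonuniquePhase_of_places [Infinite Γ] (hd : ∀ p, 0 < d p)
    (h : ∀ p, TransExt (ρs p) ∨ ProperSpace (K p) ∧ Trans (ρs p))
    (hfin : Multi.BoxFinite ρs) : SG.NonuniquePhase Γ :=
  nonuniquePhase_of_frames ρs hd (fun p => (h p).elim (frames_of_transExt _) fun hp =>
    have := hp.1
    frames_of_trans _ hp.2) hfin

end several

/-- One field, boxes of entries: transversality over every extension gives a phase. -/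
theorem nonuniquePhase_of_transExt {k : Type} [NontriviallyNormedField k] {n : ℕ} [Infinite Γ]
    (hn : 0 < n) (ρ : Γ →* SL(n, k)) (htr : TransExt ρ)
    (hfin : ∀ R : ℝ, {g : Γ | ∀ i j, ‖(ρ g : Matrix (Fin n) (Fin n) k) i j‖ ≤ R}.Finite) :
    SG.NonuniquePhase Γ :=
  nonuniquePhase_of_frames (P := Unit) (K := fun _ => k) (d := fun _ => n) (fun _ => ρ)
    (fun _ => hn) (fun _ => frames_of_transExt ρ htr) fun R =>
      (finite_norm_of_boxes ρ hfin R).subset fun _ hg => hg ()

end Vale.Agent.P165.EX.Any
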